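import Vale.Agent.P057.R2.H776.Count

/-!
# P057 : the growth of the number of points, by a certificate with 360 states
-/

set_option linter.all false

open Finset

namespace Vale.Agent.P057.R2.H776

/-- lower bounds for the numbers of points, in units -/
def V : ℕ → ℕ → ℕ
  | 0, k => if 240 < k then 1 else 0
  | (D + 1), k => ∑ i ∈ Finset.range (min k 360), V D (NN i)

/-- the certificate -/
def Wl : List ℕ := [
  615, 628, 635, 642, 648, 662, 669, 675, 682, 696, 703, 709, 716, 730, 737,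
  744, 751, 765, 772, 779, 786, 800, 807, 814, 821, 836, 843, 850, 857, 872,
  879, 886, 893, 908, 915, 922, 929, 944, 951, 958, 965, 980, 987, 994, 1001,
  1016, 1023, 1030, 1037, 1052, 1059, 1066, 1073, 1088, 1095, 1102, 1109, 1124, 1131, 1138,
  1146, 1160, 1167, 1174, 1182, 1196, 1203, 1210, 1218, 1232, 1239, 1246, 1254, 1268, 1275,
  1283, 1290, 1304, 1311, 1319, 1326, 1340, 1347, 1355, 1362, 1376, 1383, 1391, 1398, 1412,
  1420, 1427, 1434, 1448, 1456, 1463, 1470, 1484, 1492, 1499, 1506, 1520, 1528, 1535, 1542,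
  1557, 1564, 1571, 1578, 1592, 1599, 1607, 1614, 1628, 1634, 1641, 1648, 1662, 1669, 1675,
  1682, 1695, 1702, 1708, 1715, 1727, 1734, 1740, 1746, 1758, 1764, 1770, 1776, 1787, 1793,
  1799, 1804, 1815, 1820, 1826, 1831, 1841, 1846, 1851, 1856, 1865, 1870, 1875, 1879, 1888,
  1892, 1897, 1901, 1909, 1913, 1917, 1921, 1929, 1932, 1936, 1940, 1947, 1950, 1953, 1957,
  1963, 1966, 1969, 1972, 1978, 1980, 1983, 1986, 1991, 1993, 1995, 1998, 2000, 2000, 2000,
  2000, 2000, 2000, 2000, 2000, 2000, 2000, 2000, 2000, 2000, 2000, 2000, 2000, 2000, 2000,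
  2000, 2000, 2000, 2000, 2000, 2000, 2000, 2000, 2000, 2000, 2000, 2000, 2000, 2000, 2000,
  2000, 2000, 2000, 2000, 2000, 2000, 2000, 2000, 2000, 2000, 2000, 2000, 2000, 2000, 2000,
  2000, 2000, 2000, 2000, 2000, 2000, 2000, 2000, 2000, 2000, 2000, 2000, 2000, 2000, 2000,
  2000, 2000, 2000, 2000, 2000, 2000, 2000, 2000, 2000, 2000, 2000, 2000, 2000, 2000, 2000,
  2000, 2000, 2000, 2000, 2000, 2000, 2000, 2000, 2000, 2000, 2000, 2000, 2000, 2000, 2000,
  2000, 2000, 1995, 1988, 1983, 1975, 1969, 1960, 1953, 1943, 1936, 1925, 1917, 1905, 1897,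
  1884, 1875, 1861, 1851, 1836, 1826, 1810, 1799, 1782, 1770, 1752, 1740, 1721, 1708, 1689,
  1675, 1655, 1641, 1621, 1607, 1585, 1571, 1549, 1535, 1513, 1499, 1477, 1463, 1441, 1427,
  1405, 1391, 1369, 1355, 1333, 1319, 1297, 1283, 1261, 1246, 1225, 1210, 1189, 1174, 1153,
  1138, 1117, 1102, 1081, 1066, 1045, 1030, 1009, 994, 972, 958, 936, 922, 900, 886,
  864, 850, 829, 814, 793, 779, 758, 744, 723, 709, 689, 675, 655, 642, 622]

/-- the entries of the certificate -/
def ww (i : ℕ) : ℕ := Wl.getD i 0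

theorem take_sum (l : List ℕ) (k : ℕ) : (l.take k).sum = ∑ i ∈ Finset.range k, l.getD i 0 := by
  induction l generalizing k with
  | nil => simp
  | cons a l ih =>
    cases k with
    | zero => simp
    | succ k =>
      rw [List.take_succ_cons, List.sum_cons, ih, Finset.sum_range_succ']
      simp [add_comm]

theorem cert : ∀ i < 360, 1386 * Wl.getD i 0 ≤ 5 * (Wl.take (NN i)).sum := by
  decide +kernel

theorem ww_le : ∀ i < 360, Wl.getD i 0 ≤ 2000 := by
  decide +kernel

theorem ww_sum : (Wl.take 360).sum = 554781 := by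
  decide +kernel

/-- partial sums of the certificate -/
def WW (k : ℕ) : ℕ := ∑ i ∈ Finset.range (min k 360), ww i

theorem Wl_len : Wl.length = 360 := by
  decide +kernel

theorem WW_take (k : ℕ) : (Wl.take k).sum = WW k := by
  unfold WW ww
  rw [← take_sum]
  rcases le_total k 360 with h | h
  · rw [min_eq_left h]
  · rw [min_eq_right h, List.take_of_length_le (by rw [Wl_len]; exact h),
      List.take_of_length_le (by rw [Wl_len])]

theorem cert' (i : ℕ) (hi : i < 360) : 1386 * ww i ≤ 5 * WW (NN i) := by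
  rw [← WW_take]
  exact cert i hi

theorem V_one (j : ℕ) (hj : 139 ≤ j) : 1 ≤ V 1 j := by
  have h1 : V 0 (NN 138) ≤ ∑ i ∈ Finset.range (min j 360), V 0 (NN i) :=
    Finset.single_le_sum (f := fun i => V 0 (NN i)) (fun i _ => Nat.zero_le _)
      (Finset.mem_range.2 (lt_min (by omega) (by norm_num)))
  have h2 : V 0 (NN 138) = 1 := by
    decide
  rw [h2] at h1
  exact h1

theorem NN_ge (i : ℕ) (hi : i < 360) : 139 ≤ NN i := by
  unfold NN
  split_ifs <;> omega

theorem V_two (k : ℕ) : WW k ≤ 2000 * V 2 k := by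
  show WW k ≤ 2000 * ∑ i ∈ Finset.range (min k 360), V 1 (NN i)
  unfold WW
  rw [Finset.mul_sum]
  apply Finset.sum_le_sum
  intro i hi
  have hi2 : i < 360 := lt_of_lt_of_le (Finset.mem_range.1 hi) (min_le_right _ _)
  have h1 := V_one _ (NN_ge i hi2)
  have h2 : ww i ≤ 2000 := ww_le i hi2
  omega

theorem V_grow (D : ℕ) (k : ℕ) : 1386 ^ D * WW k ≤ 2000 * 5 ^ D * V (D + 2) k := by
  induction D generalizing k with
  | zero =>
    have := V_two k
    simpa using this
  | succ D ih =>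
    show 1386 ^ (D + 1) * WW k ≤
      2000 * 5 ^ (D + 1) * ∑ i ∈ Finset.range (min k 360), V (D + 2) (NN i)
    unfold WW
    rw [Finset.mul_sum, Finset.mul_sum]
    apply Finset.sum_le_sum
    intro i hi
    have hi2 : i < 360 := lt_of_lt_of_le (Finset.mem_range.1 hi) (min_le_right _ _)
    have h1 := ih (NN i)
    have h2 := cert' i hi2
    calc 1386 ^ (D + 1) * ww i = 1386 ^ D * (1386 * ww i) := by ring
      _ ≤ 1386 ^ D * (5 * WW (NN i)) := Nat.mul_le_mul_left _ h2
      _ = 5 * (1386 ^ D * WW (NN i)) := by ring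
      _ ≤ 5 * (2000 * 5 ^ D * V (D + 2) (NN i)) := Nat.mul_le_mul_left _ h1
      _ = 2000 * 5 ^ (D + 1) * V (D + 2) (NN i) := by ring

theorem V_final (D : ℕ) : 1386 ^ D * 554781 ≤ 2000 * 5 ^ D * V (D + 2) 360 := by
  have h := V_grow D 360
  have h2 : WW 360 = 554781 := by
    rw [← WW_take, ww_sum]
  rw [h2] at h
  exact h

end Vale.Agent.P057.R2.H776
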