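import Vale.Agent.P057.R2.H776.Grade

/-!
# P057 : counting in the extension of a graded block
-/

set_option linter.all false

open Finset

namespace Vale.Agent.P057.R2.H776

/-- the number of cells of the previous level which are allowed over the cell `i` -/
def NN (i : ℕ) : ℕ := if i < 240 then (559 + 5 * i) / 4 else (2076 - 5 * i) / 2

open Classical in
/-- the number of elements with `F < k / 480` -/
noncomputable def cnt {D : ℕ} (S : Finset (Fin D → ℤ)) (F : (Fin D → ℤ) → ℝ) (k : ℕ) : ℕ :=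
  (S.filter (fun u => F u < (k : ℝ) / 480)).card

/-- the cell -/
noncomputable def cell (p : ℕ) (η : ℝ) (i : ℕ) : Finset ℕ :=
  Finset.Ico ⌈((i : ℝ) / 480 + η) * p⌉₊ ⌈((i : ℝ) + 1) / 480 * p⌉₊

theorem mem_cell {p : ℕ} {η : ℝ} {i X : ℕ} (h : X ∈ cell p η i) :
    ((i : ℝ) / 480 + η) * p ≤ X ∧ (X : ℝ) < ((i : ℝ) + 1) / 480 * p := by
  unfold cell at h
  rw [Finset.mem_Ico] at h
  exact ⟨Nat.ceil_le.1 h.1, Nat.lt_ceil.1 h.2⟩

theorem cell_card (p : ℕ) (η : ℝ) (i : ℕ) (hη : 0 < η) :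
    (p : ℝ) / 480 - η * p - 1 ≤ ((cell p η i).card : ℝ) := by
  unfold cell
  rw [Nat.card_Ico]
  have h1 : ((i : ℝ) + 1) / 480 * p ≤ ⌈((i : ℝ) + 1) / 480 * p⌉₊ := Nat.le_ceil _
  have h2 : (⌈((i : ℝ) / 480 + η) * p⌉₊ : ℝ) < ((i : ℝ) / 480 + η) * p + 1 :=
    Nat.ceil_lt_add_one (by positivity)
  have h3 : ((⌈((i : ℝ) + 1) / 480 * p⌉₊ : ℝ) - ⌈((i : ℝ) / 480 + η) * p⌉₊ : ℝ) ≤
      ((⌈((i : ℝ) + 1) / 480 * p⌉₊ - ⌈((i : ℝ) / 480 + η) * p⌉₊ : ℕ) : ℝ) := by
    rw [sub_le_iff_le_add]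
    have : ⌈((i : ℝ) + 1) / 480 * p⌉₊ ≤
        (⌈((i : ℝ) + 1) / 480 * p⌉₊ - ⌈((i : ℝ) / 480 + η) * p⌉₊) +
          ⌈((i : ℝ) / 480 + η) * p⌉₊ := by omega
    exact_mod_cast this
  have h4 : ((i : ℝ) + 1) / 480 * p - (((i : ℝ) / 480 + η) * p + 1) =
      (p : ℝ) / 480 - η * p - 1 := by ring
  linarith

/-- the lift of a companion vector -/
def lift {D : ℕ} (q : Fin (D + 1) → ℕ) (θ : Fin D → ℤ) (w : Fin D → ℤ) : Fin D → ℤ :=
  fun j => ((θ j - w j) * (((q j.succ : ℤ) + 1) / 2)) % (q j.succ : ℤ)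

theorem co_lift {D : ℕ} (q : Fin (D + 1) → ℕ) (hodd : ∀ j, q j % 2 = 1) (θ w : Fin D → ℤ)
    (hw : ∀ j, 0 ≤ w j ∧ w j < q j.succ) (X : ℤ) :
    co q θ (Fin.cons X (lift q θ w) : Fin (D + 1) → ℤ) = w := by
  funext j
  unfold co
  rw [Fin.cons_succ]
  have ho := hodd j.succ
  obtain ⟨t, ht⟩ : ∃ t : ℤ, t = ((q j.succ : ℤ) + 1) / 2 := ⟨_, rfl⟩
  have ht2 : 2 * t = q j.succ + 1 := by omega
  have e1 : lift q θ w j = ((θ j - w j) * t) % (q j.succ : ℤ) := by
    unfold lift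
    rw [ht]
  have h := Int.emod_add_mul_ediv ((θ j - w j) * t) (q j.succ : ℤ)
  have hpos : (0 : ℤ) < q j.succ := lt_of_le_of_lt (hw j).1 (hw j).2
  apply eq_of_red ⟨Int.emod_nonneg _ hpos.ne', Int.emod_lt_of_pos _ hpos⟩ (hw j)
  have h2 := Int.emod_add_mul_ediv (θ j - 2 * lift q θ w j) (q j.succ : ℤ)
  rw [e1] at h2 ⊢
  set a := ((θ j - w j) * t) % (q j.succ : ℤ) with ha
  set b := ((θ j - w j) * t) / (q j.succ : ℤ) with hb
  set c := (θ j - 2 * a) % (q j.succ : ℤ) with hc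
  set d := (θ j - 2 * a) / (q j.succ : ℤ) with hd
  refine ⟨2 * b - (θ j - w j) - d, ?_⟩
  have h3 : 2 * ((θ j - w j) * t) = (θ j - w j) * (q j.succ + 1) := by
    rw [← ht2]; ring
  have h4 : c = θ j - 2 * a - (q j.succ : ℤ) * d := by linarith
  have h5 : 2 * a = (θ j - w j) * (q j.succ + 1) - 2 * ((q j.succ : ℤ) * b) := by linarith
  rw [h4, h5]
  ring

theorem lift_inj {D : ℕ} (q : Fin (D + 1) → ℕ) (hodd : ∀ j, q j % 2 = 1) (θ w w' : Fin D → ℤ)
    (hw : ∀ j, 0 ≤ w j ∧ w j < q j.succ) (hw' : ∀ j, 0 ≤ w' j ∧ w' j < q j.succ)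
    (h : lift q θ w = lift q θ w') : w = w' := by
  rw [← co_lift q hodd θ w hw 0, ← co_lift q hodd θ w' hw' 0, h]

theorem NN_lo {i : ℕ} (hi : i < 240) {x : ℝ} (hx : (i : ℝ) / 480 ≤ x) :
    (NN i : ℝ) / 480 ≤ lo x := by
  unfold NN lo
  rw [if_pos hi]
  have h1 : (((559 + 5 * i) / 4 : ℕ) : ℝ) ≤ (559 + 5 * (i : ℝ)) / 4 := by
    have := @Nat.cast_div_le ℝ _ _ _ (559 + 5 * i) 4
    push_cast at this
    exact this
  linarith

theorem NN_hi {i : ℕ} (h1i : 240 ≤ i) (h2i : i < 360) {x : ℝ} (hx : x < ((i : ℝ) + 1) / 480) :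
    (NN i : ℝ) / 480 ≤ hi x := by
  unfold NN hi
  rw [if_neg (by omega)]
  have h1 : (((2076 - 5 * i) / 2 : ℕ) : ℝ) ≤ (2076 - 5 * (i : ℝ)) / 2 := by
    have h2 := @Nat.cast_div_le ℝ _ _ _ (2076 - 5 * i) 2
    have h3 : ((2076 - 5 * i : ℕ) : ℝ) = 2076 - 5 * (i : ℝ) := by
      rw [Nat.cast_sub (by omega)]
      push_cast
      ring
    rw [h3] at h2
    exact_mod_cast h2
  linarith

theorem lift_red {D : ℕ} (q : Fin (D + 1) → ℕ) (hq : ∀ j, 0 < q j) (θ w : Fin D → ℤ) (j : Fin D) :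
    0 ≤ lift q θ w j ∧ lift q θ w j < q j.succ := by
  have hpos : (0 : ℤ) < q j.succ := by exact_mod_cast hq j.succ
  exact ⟨Int.emod_nonneg _ hpos.ne', Int.emod_lt_of_pos _ hpos⟩

theorem cell_unique {p : ℕ} (hp : 0 < p) {η : ℝ} (hη : 0 < η) {i i' X : ℕ} (h : X ∈ cell p η i)
    (h' : X ∈ cell p η i') : i ≤ i' := by
  have hp0 : (0 : ℝ) < p := by exact_mod_cast hp
  have h1 := (mem_cell h).1
  have h2 := (mem_cell h').2
  have h3 : ((i : ℝ) / 480 + η) * p < ((i' : ℝ) + 1) / 480 * p := by linarith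
  have h4 : ((i : ℝ) / 480 + η) < ((i' : ℝ) + 1) / 480 := lt_of_mul_lt_mul_right h3 hp0.le
  have h5 : (i : ℝ) < i' + 1 := by linarith
  have h6 : i < i' + 1 := by exact_mod_cast h5
  omega

/-- the vector over a point of a cell -/
noncomputable def phi {D : ℕ} (q : Fin (D + 1) → ℕ) (θ : Fin D → ℤ)
    (a : Σ _ : ℕ, ℕ × (Fin D → ℤ)) : Fin (D + 1) → ℤ :=
  Fin.cons (a.2.1 : ℤ) (if a.1 < 240 then a.2.2 else lift q θ a.2.2)

theorem cnt_ex {D : ℕ} {q : Fin (D + 1) → ℕ} {S : Finset (Fin D → ℤ)} {f F : (Fin D → ℤ) → ℝ}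
    {θ : Fin D → ℤ} {R g η : ℝ} (hodd : ∀ j, q j % 2 = 1)
    (h : GBlk (fun j => q j.succ) S f F θ R g) (hη : 0 < η) (k : ℕ) :
    ∑ i ∈ Finset.range (min k 360), (cell (q 0) η i).card * cnt S F (NN i) ≤
      cnt (exS q S F θ η) (xr q) k := by
  classical
  have hqpos : ∀ j, 0 < q j := fun j => by have := hodd j; omega
  have hp0 : (0 : ℝ) < q 0 := by exact_mod_cast hqpos 0
  set T : Finset (Σ _ : ℕ, ℕ × (Fin D → ℤ)) := (Finset.range (min k 360)).sigma
    (fun i => (cell (q 0) η i) ×ˢ (S.filter (fun u => F u < (NN i : ℝ) / 480))) with hT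
  have hcard : T.card = ∑ i ∈ Finset.range (min k 360), (cell (q 0) η i).card * cnt S F (NN i) := by
    rw [hT, Finset.card_sigma]
    apply Finset.sum_congr rfl
    intro i _
    rw [Finset.card_product]
    rfl
  rw [← hcard]
  unfold cnt
  have hmem : ∀ a ∈ T, a.1 < min k 360 ∧ a.2.1 ∈ cell (q 0) η a.1 ∧ a.2.2 ∈ S ∧
      F a.2.2 < (NN a.1 : ℝ) / 480 := by
    intro a ha
    rw [hT, Finset.mem_sigma, Finset.mem_range, Finset.mem_product, Finset.mem_filter] at ha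
    exact ⟨ha.1, ha.2.1, ha.2.2.1, ha.2.2.2⟩
  apply Finset.card_le_card_of_injOn (phi q θ)
  · intro a ha
    obtain ⟨h1, h2, h3, h4⟩ := hmem a ha
    obtain ⟨c1, c2⟩ := mem_cell h2
    have hi1 : a.1 < 360 := lt_of_lt_of_le h1 (min_le_right _ _)
    have hi2 : a.1 + 1 ≤ k := lt_of_lt_of_le h1 (min_le_left _ _)
    have hi1R : (a.1 : ℝ) + 1 ≤ 360 := by exact_mod_cast hi1
    have hi2R : (a.1 : ℝ) + 1 ≤ k := by exact_mod_cast hi2
    have v0 : phi q θ a 0 = (a.2.1 : ℤ) := rfl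
    have hxr : xr q (phi q θ a) = (a.2.1 : ℝ) / q 0 := by
      unfold xr
      rw [v0, Int.cast_natCast]
    have hx1 : (a.1 : ℝ) / 480 + η ≤ xr q (phi q θ a) := by
      rw [hxr, le_div_iff₀ hp0]
      exact c1
    have hx2 : xr q (phi q θ a) < ((a.1 : ℝ) + 1) / 480 := by
      rw [hxr, div_lt_iff₀ hp0]
      exact c2
    rw [Finset.mem_coe, Finset.mem_filter, mem_exS]
    refine ⟨⟨?_, ?_⟩, ?_⟩
    · intro j
      refine Fin.cases ?_ (fun i => ?_) j
      · rw [v0]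
        refine ⟨by positivity, ?_⟩
        have h5 : (a.2.1 : ℝ) < q 0 := by
          have : xr q (phi q θ a) < 1 := by linarith
          rw [hxr, div_lt_one hp0] at this
          exact this
        exact_mod_cast h5
      · show 0 ≤ (if a.1 < 240 then a.2.2 else lift q θ a.2.2) i ∧
          (if a.1 < 240 then a.2.2 else lift q θ a.2.2) i < _
        split_ifs
        · exact h.red _ h3 i
        · exact lift_red q hqpos θ _ i
    · by_cases hi : a.1 < 240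
      · left
        have hiR : (a.1 : ℝ) + 1 ≤ 240 := by exact_mod_cast hi
        have ht : tl (phi q θ a) = a.2.2 := by
          funext i
          show (if a.1 < 240 then a.2.2 else lift q θ a.2.2) i = _
          rw [if_pos hi]
        refine ⟨(xr_low (hqpos 0)).2 (by linarith), ?_, ?_⟩
        · rw [ht]; exact h3
        · rw [ht]
          exact lt_of_lt_of_le h4 (NN_lo hi (by linarith))
      · right
        have hiR : (240 : ℝ) ≤ a.1 := by exact_mod_cast not_lt.1 hi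
        have ht : co q θ (phi q θ a) = a.2.2 := by
          have e : phi q θ a = (Fin.cons (a.2.1 : ℤ) (lift q θ a.2.2) : Fin (D + 1) → ℤ) := by
            unfold phi
            rw [if_neg hi]
          rw [e]
          exact co_lift q hodd θ _ (h.red _ h3) _
        refine ⟨by linarith, by linarith, ?_, ?_⟩
        · rw [ht]; exact h3
        · rw [ht]
          exact lt_of_lt_of_le h4 (NN_hi (not_lt.1 hi) hi1 hx2)
    · have : ((a.1 : ℝ) + 1) / 480 ≤ (k : ℝ) / 480 := by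
        apply div_le_div_of_nonneg_right hi2R (by norm_num)
      linarith
  · intro a ha b hb hab
    obtain ⟨a1, a2, a3, a4⟩ := hmem a ha
    obtain ⟨b1, b2, b3, b4⟩ := hmem b hb
    have e0 : (a.2.1 : ℤ) = b.2.1 := congrFun hab 0
    have e0' : a.2.1 = b.2.1 := by exact_mod_cast e0
    have ei : a.1 = b.1 := by
      apply le_antisymm
      · exact cell_unique (hqpos 0) hη a2 (by rw [e0']; exact b2)
      · exact cell_unique (hqpos 0) hη b2 (by rw [← e0']; exact a2)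
    have e1 : (if a.1 < 240 then a.2.2 else lift q θ a.2.2) =
        (if b.1 < 240 then b.2.2 else lift q θ b.2.2) := by
      funext i
      exact congrFun hab i.succ
    have e2 : a.2.2 = b.2.2 := by
      rw [ei] at e1
      split_ifs at e1
      · exact e1
      · exact lift_inj q hodd θ _ _ (h.red _ a3) (h.red _ b3) e1
    obtain ⟨ai, aX, au⟩ := a
    obtain ⟨bi, bX, bu⟩ := b
    simp only at ei e0' e2
    subst ei
    subst e0'
    subst e2
    rfl

end Vale.Agent.P057.R2.H776
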