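import Vale.Agent.P057.R2.H776.Cert

/-!
# P057 : graded blocks in every dimension
-/

set_option linter.all false

open Finset

namespace Vale.Agent.P057.R2.H776

open Vale.Agent.P057.H203 (Blk BlkFam)

theorem GBlk.mono {D : ℕ} {q : Fin D → ℕ} {S : Finset (Fin D → ℤ)} {f F : (Fin D → ℤ) → ℝ}
    {θ : Fin D → ℤ} {R g g' : ℝ} (h : GBlk q S f F θ R g) (hg : g' ≤ g) :
    GBlk q S f F θ R g' :=
  ⟨h.red, h.nonneg, h.le, fun x hx y hy z hz hd =>
    (h.cv x hx y hy z hz hd).imp id (fun h1 => hg.trans h1), h.tri⟩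

theorem GBlk.blk {D : ℕ} {q : Fin D → ℕ} {S : Finset (Fin D → ℤ)} {f F : (Fin D → ℤ) → ℝ}
    {θ : Fin D → ℤ} {R g : ℝ} (h : GBlk q S f F θ R g) : Blk q S f R g :=
  ⟨fun u hu v hv hd => by
    funext j
    exact eq_of_red (h.red u hu j) (h.red v hv j) (hd j), h.nonneg, h.le, h.cv⟩

/-- the block of dimension zero -/
theorem base (q : Fin 0 → ℕ) (g : ℝ) :
    GBlk q {fun _ => 0} (fun _ => 0) (fun _ => 1 / 2) (fun _ => 0) 0 g := by
  refine ⟨?_, ?_, ?_, ?_, ?_⟩
  · intro u hu j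
    exact j.elim0
  · intro u hu
    exact le_rfl
  · intro u hu
    exact le_rfl
  · intro x hx y hy z hz hd
    left
    exact Subsingleton.elim _ _
  · intro x hx y hy z hz hd
    norm_num

theorem base_cnt (k : ℕ) :
    (V 0 k : ℝ) ≤ cnt ({fun _ => 0} : Finset (Fin 0 → ℤ)) (fun _ => 1 / 2) k := by
  classical
  unfold V cnt
  split_ifs with h
  · have hk : (1 : ℝ) / 2 < (k : ℝ) / 480 := by
      rw [lt_div_iff₀ (by norm_num)]
      have : (240 : ℝ) < k := by exact_mod_cast h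
      linarith
    rw [Finset.filter_true_of_mem (fun u _ => hk)]
    simp
  · simp

theorem cell_bd (p : ℕ) (δ : ℝ) (hδ : 0 < δ) (hp : 960 ≤ δ * p) (i : ℕ) :
    (1 - δ) * ((p : ℝ) / 480) ≤ ((cell p (δ / 960) i).card : ℝ) := by
  refine le_trans ?_ (cell_card p (δ / 960) i (by positivity))
  linarith

theorem fam (D : ℕ) (δ : ℝ) (hδ : 0 < δ) (hδ1 : δ < 1) : ∃ (R c : ℝ) (m0 : ℕ),
    0 < c ∧ c ≤ 1 ∧ 0 ≤ R ∧ 1 ≤ m0 ∧ ∀ m : ℕ, m0 ≤ m → ∀ q : Fin D → ℕ,
      (∀ j, (q j).Prime ∧ m < q j ∧ q j ≤ 8 * m) →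
      ∃ (S : Finset (Fin D → ℤ)) (f F : (Fin D → ℤ) → ℝ) (θ : Fin D → ℤ),
        GBlk q S f F θ R (c / (m : ℝ) ^ 2) ∧
        ∀ k : ℕ, (1 - δ) ^ D * V D k * ∏ j, ((q j : ℝ) / 480) ≤ cnt S F k := by
  induction D with
  | zero =>
    refine ⟨0, 1, 1, one_pos, le_rfl, le_rfl, le_rfl, fun m hm q hq =>
      ⟨{fun _ => 0}, fun _ => 0, fun _ => 1 / 2, fun _ => 0, base q _, fun k => ?_⟩⟩
    have := base_cnt k
    simpa using this
  | succ D ih =>
    obtain ⟨R, c, m0, hc, hc1, hR, hm0, hfam⟩ := ih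
    obtain ⟨η, hη⟩ : ∃ η : ℝ, η = δ / 960 := ⟨_, rfl⟩
    have hη0 : 0 < η := by rw [hη]; positivity
    have hη1 : η ≤ 1 := by rw [hη]; linarith
    obtain ⟨M, hM⟩ : ∃ M : ℝ, M = (4 * R + 4) / η ^ 2 := ⟨_, rfl⟩
    have hMη : M * η ^ 2 = 4 * R + 4 := by rw [hM]; field_simp
    have hMR : 4 * R + 4 ≤ M := by
      have h1 : η ^ 2 ≤ 1 := by nlinarith
      rw [hM, le_div_iff₀ (by positivity)]
      have : (4 * R + 4) * η ^ 2 ≤ (4 * R + 4) * 1 :=
        mul_le_mul_of_nonneg_left h1 (by linarith)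
      linarith
    have hM0 : 0 < M := by linarith
    obtain ⟨n1, hn1⟩ := exists_nat_ge (960 / δ)
    refine ⟨M + R, min c (M / 128), max m0 (max 400 n1), lt_min hc (by positivity),
      (min_le_left _ _).trans hc1, by linarith, hm0.trans (le_max_left _ _), ?_⟩
    intro m hm q hq
    have hm1 : m0 ≤ m := (le_max_left _ _).trans hm
    have hm2 : 400 ≤ m := (le_max_left _ _).trans ((le_max_right _ _).trans hm)
    have hm3 : n1 ≤ m := (le_max_right _ _).trans ((le_max_right _ _).trans hm)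
    have hmR : (0 : ℝ) < m := by
      have : 0 < m := by omega
      exact_mod_cast this
    have hmR1 : (1 : ℝ) ≤ m := by
      have : 1 ≤ m := by omega
      exact_mod_cast this
    obtain ⟨S, f, F, θ, hG, hcnt⟩ := hfam m hm1 (fun j => q j.succ) (fun j => hq j.succ)
    have hodd : ∀ j, q j % 2 = 1 := by
      intro j
      obtain ⟨h1, h2, _⟩ := hq j
      exact (h1.eq_two_or_odd).resolve_left (by omega)
    have hq0 := (hq 0).2
    have hq0R : (0 : ℝ) < q 0 := by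
      have : 0 < q 0 := by omega
      exact_mod_cast this
    have hq8 : (q 0 : ℝ) ≤ 8 * m := by exact_mod_cast hq0.2
    have hqm : (m : ℝ) ≤ q 0 := by
      have : m ≤ q 0 := by omega
      exact_mod_cast this
    have h960 : 960 ≤ δ * q 0 := by
      have h1 : 960 / δ ≤ (q 0 : ℝ) := hn1.trans (le_trans (by exact_mod_cast hm3) hqm)
      rw [div_le_iff₀ hδ] at h1
      linarith
    have hG' := hG.mono (g' := min c (M / 128) / (m : ℝ) ^ 2)
      (div_le_div_of_nonneg_right (min_le_left _ _) (by positivity))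
    have hg1 : min c (M / 128) / (m : ℝ) ^ 2 ≤ 1 := by
      rw [div_le_one (by positivity)]
      have h1 : min c (M / 128) ≤ 1 := (min_le_left _ _).trans hc1
      nlinarith
    have hgq : min c (M / 128) / (m : ℝ) ^ 2 ≤ M / (2 * (q 0 : ℝ) ^ 2) := by
      have h1 : min c (M / 128) / (m : ℝ) ^ 2 ≤ (M / 128) / (m : ℝ) ^ 2 :=
        div_le_div_of_nonneg_right (min_le_right _ _) (by positivity)
      refine h1.trans ?_
      rw [div_div]
      apply div_le_div_of_nonneg_left hM0.le (by positivity)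
      nlinarith
    have hqη : 1 < 2 * η * q 0 := by
      rw [hη]
      linarith
    refine ⟨exS q S F θ η, exf q f θ M, xr q, exθ q θ,
      step hodd hG' hη0 hMR hMη.ge hR hg1 hgq (by omega) hqη, ?_⟩
    intro k
    have h1 := cnt_ex hodd hG hη0 k
    have h2 : (∑ i ∈ Finset.range (min k 360), ((cell (q 0) η i).card : ℝ) * cnt S F (NN i)) ≤
        cnt (exS q S F θ η) (xr q) k := by exact_mod_cast h1
    refine le_trans ?_ h2
    rw [Fin.prod_univ_succ]
    have h3 : ((V (D + 1) k : ℕ) : ℝ) = ∑ i ∈ Finset.range (min k 360), (V D (NN i) : ℝ) := by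
      show ((∑ i ∈ Finset.range (min k 360), V D (NN i) : ℕ) : ℝ) = _
      push_cast
      rfl
    rw [h3]
    have h4 : (1 - δ) ^ (D + 1) * (∑ i ∈ Finset.range (min k 360), (V D (NN i) : ℝ)) *
        ((q 0 : ℝ) / 480 * ∏ j : Fin D, ((q j.succ : ℝ) / 480)) =
        ∑ i ∈ Finset.range (min k 360), ((1 - δ) * ((q 0 : ℝ) / 480)) *
          ((1 - δ) ^ D * (V D (NN i) : ℝ) * ∏ j : Fin D, ((q j.succ : ℝ) / 480)) := by
      rw [Finset.mul_sum, Finset.sum_mul]
      apply Finset.sum_congr rfl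
      intro i _
      ring
    rw [h4]
    apply Finset.sum_le_sum
    intro i _
    have h5 : (1 - δ) * ((q 0 : ℝ) / 480) ≤ ((cell (q 0) η i).card : ℝ) := by
      rw [hη]
      exact cell_bd (q 0) δ hδ h960 i
    have h6 := hcnt (NN i)
    have h7 : 0 ≤ (1 - δ) ^ D * (V D (NN i) : ℝ) * ∏ j : Fin D, ((q j.succ : ℝ) / 480) := by
      have : 0 ≤ 1 - δ := by linarith
      positivity
    exact mul_le_mul h5 h6 h7 (Nat.cast_nonneg _)

end Vale.Agent.P057.R2.H776
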