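import Vale.Agent.P057.H203.Asym

/-!
# P057 : graded blocks and their one step extension

A graded block is a weighted block (modulo distinct odd primes) together with a second function `F`
and a vector `θ` such that `x + y + z ≡ θ` inside the block forces `F x + F y + F z ≥ 3/2`.
A graded block in dimension `D` gives a graded block in dimension `D + 1`.
-/

set_option linter.all false

open Finset

namespace Vale.Agent.P057.R2.H776

/-- a graded block -/
structure GBlk {D : ℕ} (q : Fin D → ℕ) (S : Finset (Fin D → ℤ)) (f F : (Fin D → ℤ) → ℝ)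
    (θ : Fin D → ℤ) (R g : ℝ) : Prop where
  red : ∀ u ∈ S, ∀ j, 0 ≤ u j ∧ u j < q j
  nonneg : ∀ u ∈ S, 0 ≤ f u
  le : ∀ u ∈ S, f u ≤ R
  cv : ∀ x ∈ S, ∀ y ∈ S, ∀ z ∈ S, (∀ j, (q j : ℤ) ∣ x j - 2 * y j + z j) →
    x = z ∨ g ≤ f x - 2 * f y + f z
  tri : ∀ x ∈ S, ∀ y ∈ S, ∀ z ∈ S, (∀ j, (q j : ℤ) ∣ x j + y j + z j - θ j) →
    3 / 2 ≤ F x + F y + F z

theorem dvd_of_two {q a : ℤ} (hq : q % 2 = 1) (h : q ∣ 2 * a) : q ∣ a := by
  have hc : IsCoprime q 2 := ⟨1, -(q / 2), by omega⟩
  exact hc.dvd_of_dvd_mul_left h

theorem eq_of_red {q a b : ℤ} (ha : 0 ≤ a ∧ a < q) (hb : 0 ≤ b ∧ b < q) (h : q ∣ a - b) :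
    a = b := by
  have h0 : a - b = 0 := by
    apply Int.eq_zero_of_abs_lt_dvd h
    rw [abs_lt]
    constructor <;> omega
  omega

/-- the lower threshold -/
noncomputable def lo (x : ℝ) : ℝ := 559 / 1920 + 5 / 4 * x

/-- the upper threshold -/
noncomputable def hi (x : ℝ) : ℝ := 881 / 960 - 5 / 2 * (x - 1 / 2)

/-- the tail of a vector -/
def tl {D : ℕ} (v : Fin (D + 1) → ℤ) : Fin D → ℤ := fun j => v j.succ

/-- the companion of the tail of a vector -/
def co {D : ℕ} (q : Fin (D + 1) → ℕ) (θ : Fin D → ℤ) (v : Fin (D + 1) → ℤ) : Fin D → ℤ :=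
  fun j => (θ j - 2 * v j.succ) % (q j.succ : ℤ)

theorem co_dvd {D : ℕ} (q : Fin (D + 1) → ℕ) (θ : Fin D → ℤ) (v : Fin (D + 1) → ℤ) (j : Fin D) :
    (q j.succ : ℤ) ∣ 2 * v j.succ + co q θ v j - θ j := by
  have h := Int.emod_add_mul_ediv (θ j - 2 * v j.succ) (q j.succ : ℤ)
  refine ⟨-((θ j - 2 * v j.succ) / (q j.succ : ℤ)), ?_⟩
  unfold co
  linarith

/-- the first coordinate, scaled -/
noncomputable def xr {D : ℕ} (q : Fin (D + 1) → ℕ) (v : Fin (D + 1) → ℤ) : ℝ :=
  (v 0 : ℝ) / q 0

/-- low vectors -/
def Low {D : ℕ} (q : Fin (D + 1) → ℕ) (S : Finset (Fin D → ℤ)) (F : (Fin D → ℤ) → ℝ)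
    (v : Fin (D + 1) → ℤ) : Prop :=
  2 * v 0 < q 0 ∧ tl v ∈ S ∧ F (tl v) < lo (xr q v)

/-- high vectors -/
def High {D : ℕ} (q : Fin (D + 1) → ℕ) (S : Finset (Fin D → ℤ)) (F : (Fin D → ℤ) → ℝ)
    (θ : Fin D → ℤ) (η : ℝ) (v : Fin (D + 1) → ℤ) : Prop :=
  1 / 2 + η ≤ xr q v ∧ xr q v < 3 / 4 ∧ co q θ v ∈ S ∧ F (co q θ v) < hi (xr q v)

open Classical in
/-- the set of the extension -/
noncomputable def exS {D : ℕ} (q : Fin (D + 1) → ℕ) (S : Finset (Fin D → ℤ))
    (F : (Fin D → ℤ) → ℝ) (θ : Fin D → ℤ) (η : ℝ) : Finset (Fin (D + 1) → ℤ) :=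
  (Fintype.piFinset (fun j => Finset.Ico (0 : ℤ) (q j))).filter
    (fun v => Low q S F v ∨ High q S F θ η v)

/-- the weight of the extension -/
noncomputable def exf {D : ℕ} (q : Fin (D + 1) → ℕ) (f : (Fin D → ℤ) → ℝ)
    (θ : Fin D → ℤ) (M : ℝ) (v : Fin (D + 1) → ℤ) : ℝ :=
  M * (xr q v) ^ 2 + if 2 * v 0 < q 0 then f (tl v) else f (co q θ v)

/-- the vector of the extension -/
def exθ {D : ℕ} (q : Fin (D + 1) → ℕ) (θ : Fin D → ℤ) : Fin (D + 1) → ℤ :=
  Fin.cons (((q 0 : ℤ) + 1) / 2) θ

theorem mem_exS {D : ℕ} {q : Fin (D + 1) → ℕ} {S : Finset (Fin D → ℤ)}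
    {F : (Fin D → ℤ) → ℝ} {θ : Fin D → ℤ} {η : ℝ} {v : Fin (D + 1) → ℤ} :
    v ∈ exS q S F θ η ↔ (∀ j, 0 ≤ v j ∧ v j < q j) ∧ (Low q S F v ∨ High q S F θ η v) := by
  classical
  unfold exS
  rw [Finset.mem_filter, Fintype.mem_piFinset]
  simp only [Finset.mem_Ico]

theorem xr_low {D : ℕ} {q : Fin (D + 1) → ℕ} {v : Fin (D + 1) → ℤ} (h0 : 0 < q 0) :
    2 * v 0 < q 0 ↔ xr q v < 1 / 2 := by
  have hR : (0 : ℝ) < q 0 := by exact_mod_cast h0
  unfold xr
  rw [div_lt_iff₀ hR]
  constructor
  · intro h
    have : (2 : ℝ) * v 0 < q 0 := by exact_mod_cast h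
    linarith
  · intro h
    have : (2 : ℝ) * v 0 < q 0 := by linarith
    exact_mod_cast this

section

variable {D : ℕ} {q : Fin (D + 1) → ℕ} {S : Finset (Fin D → ℤ)} {f F : (Fin D → ℤ) → ℝ}
  {θ : Fin D → ℤ} {R g η M : ℝ}

/-- a high vector is not low -/
theorem High.ge (h0 : 0 < q 0) (hη : 0 < η) {v : Fin (D + 1) → ℤ} (h : High q S F θ η v) :
    ¬ 2 * v 0 < q 0 := by
  rw [xr_low h0]
  have := h.1
  intro h2
  linarith

theorem xr_nonneg {v : Fin (D + 1) → ℤ} (h : 0 ≤ v 0) : 0 ≤ xr q v := by
  unfold xr
  have : (0 : ℝ) ≤ v 0 := by exact_mod_cast h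
  positivity

/-- the inner part of the weight is bounded -/
theorem inner_bd (h : GBlk (fun j => q j.succ) S f F θ R g) (h0 : 0 < q 0) (hη : 0 < η)
    {v : Fin (D + 1) → ℤ} (hv : Low q S F v ∨ High q S F θ η v) :
    0 ≤ (if 2 * v 0 < q 0 then f (tl v) else f (co q θ v)) ∧
      (if 2 * v 0 < q 0 then f (tl v) else f (co q θ v)) ≤ R := by
  rcases hv with hv | hv
  · rw [if_pos hv.1]
    exact ⟨h.nonneg _ hv.2.1, h.le _ hv.2.1⟩
  · rw [if_neg (hv.ge h0 hη)]
    exact ⟨h.nonneg _ hv.2.2.1, h.le _ hv.2.2.1⟩

theorem step (hodd : ∀ j, q j % 2 = 1) (h : GBlk (fun j => q j.succ) S f F θ R g)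
    (hη : 0 < η) (hM : 4 * R + 4 ≤ M) (hMη : 4 * R + 4 ≤ M * η ^ 2) (hR : 0 ≤ R) (hg : g ≤ 1)
    (hgq : g ≤ M / (2 * (q 0 : ℝ) ^ 2)) (hq : 400 ≤ q 0) (hqη : 1 < 2 * η * q 0) :
    GBlk q (exS q S F θ η) (exf q f θ M) (xr q) (exθ q θ) (M + R) g := by
  have h0 : 0 < q 0 := by omega
  have hR0 : (0 : ℝ) < q 0 := by exact_mod_cast h0
  have hM0 : 0 ≤ M := by linarith
  have hx1 : ∀ v : Fin (D + 1) → ℤ, v 0 < q 0 → xr q v < 1 := by
    intro v hv
    unfold xr
    rw [div_lt_one hR0]
    exact_mod_cast hv
  refine ⟨?_, ?_, ?_, ?_, ?_⟩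
  · intro u hu
    exact (mem_exS.1 hu).1
  · intro u hu
    have h2 := (inner_bd h h0 hη (mem_exS.1 hu).2).1
    unfold exf
    have : 0 ≤ M * (xr q u) ^ 2 := by positivity
    linarith
  · intro u hu
    obtain ⟨h1, h2⟩ := mem_exS.1 hu
    have h3 := (inner_bd h h0 hη h2).2
    have h4 := hx1 u (h1 0).2
    have h5 := xr_nonneg (q := q) (h1 0).1
    unfold exf
    have : M * (xr q u) ^ 2 ≤ M * 1 := by
      apply mul_le_mul_of_nonneg_left _ hM0
      nlinarith
    linarith
  · intro x hx y hy z hz hd
    obtain ⟨x1, x2⟩ := mem_exS.1 hx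
    obtain ⟨y1, y2⟩ := mem_exS.1 hy
    obtain ⟨z1, z2⟩ := mem_exS.1 hz
    have bx := inner_bd h h0 hη x2
    have by' := inner_bd h h0 hη y2
    have bz := inner_bd h h0 hη z2
    obtain ⟨k, hk⟩ := hd 0
    have hkR : xr q x - 2 * xr q y + xr q z = k := by
      have h1 : (x 0 : ℝ) - 2 * y 0 + z 0 = q 0 * k := by exact_mod_cast hk
      unfold xr
      field_simp
      linarith
    have ax := xr_nonneg (q := q) (x1 0).1
    have ay := xr_nonneg (q := q) (y1 0).1
    have az := xr_nonneg (q := q) (z1 0).1
    have cx := hx1 x (x1 0).2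
    have cy := hx1 y (y1 0).2
    have cz := hx1 z (z1 0).2
    have hk3 : k = -1 ∨ k = 0 ∨ k = 1 := by
      have a1 : (-2 : ℝ) < k := by linarith
      have a2 : (k : ℝ) < 2 := by linarith
      have b1 : (-2 : ℤ) < k := by exact_mod_cast a1
      have b2 : k < (2 : ℤ) := by exact_mod_cast a2
      omega
    rcases hk3 with hk3 | hk3 | hk3
    · -- the impossible case
      exfalso
      rw [hk3] at hkR
      push_cast at hkR
      have y3 : High q S F θ η y := by
        rcases y2 with y2 | y2
        · exfalso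
          have := (xr_low h0).1 y2.1
          linarith
        · exact y2
      have xy := y3.2.1
      have x3 : Low q S F x := by
        rcases x2 with x2 | x2
        · exact x2
        · exfalso
          have := x2.1
          linarith
      have z3 : Low q S F z := by
        rcases z2 with z2 | z2
        · exact z2
        · exfalso
          have := z2.1
          linarith
      have ht := h.tri _ x3.2.1 _ z3.2.1 _ y3.2.2.1 (by
        intro j
        have e1 := hd j.succ
        have e2 := co_dvd q θ y j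
        have e3 := dvd_add e1 e2
        have e4 : x j.succ - 2 * y j.succ + z j.succ + (2 * y j.succ + co q θ y j - θ j) =
            tl x j + tl z j + co q θ y j - θ j := by
          unfold tl
          ring
        rw [e4] at e3
        exact e3)
      have u1 := x3.2.2
      have u2 := z3.2.2
      have u3 := y3.2.2.2
      unfold lo at u1 u2
      unfold hi at u3
      linarith
    · -- no wrap
      rw [hk3] at hkR
      push_cast at hkR
      have hsq : (xr q x) ^ 2 - 2 * (xr q y) ^ 2 + (xr q z) ^ 2 =
          (xr q x - xr q z) ^ 2 / 2 := by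
        have : xr q y = (xr q x + xr q z) / 2 := by linarith
        rw [this]
        ring
      have hfar : η ≤ xr q x - xr q z ∨ η ≤ xr q z - xr q x →
          g ≤ exf q f θ M x - 2 * exf q f θ M y + exf q f θ M z := by
        intro hf
        have h1 : η ^ 2 ≤ (xr q x - xr q z) ^ 2 := by
          rcases hf with hf | hf <;> nlinarith
        have h2 : M * η ^ 2 ≤ M * (xr q x - xr q z) ^ 2 := mul_le_mul_of_nonneg_left h1 hM0
        unfold exf
        have h3 : M * xr q x ^ 2 - 2 * (M * xr q y ^ 2) + M * xr q z ^ 2 =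
            M * (xr q x - xr q z) ^ 2 / 2 := by
          rw [mul_div_assoc, ← hsq]
          ring
        linarith [bx.1, by'.2, bz.1]
      -- equal inner parts
      have hsame : ∀ X Y Z : ℝ, X - 2 * Y + Z = 0 → x ≠ z → (x 0 = z 0 → False) →
          g ≤ M * xr q x ^ 2 - 2 * (M * xr q y ^ 2) + M * xr q z ^ 2 + (X - 2 * Y + Z) := by
        intro X Y Z hXYZ hne h3
        rw [hXYZ]
        have h3' : M * xr q x ^ 2 - 2 * (M * xr q y ^ 2) + M * xr q z ^ 2 =
            M * (xr q x - xr q z) ^ 2 / 2 := by
          rw [mul_div_assoc, ← hsq]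
          ring
        rw [h3', add_zero]
        have h4 : (1 : ℝ) ≤ ((x 0 : ℝ) - z 0) ^ 2 := by
          have h5 : (x 0 : ℤ) - z 0 ≠ 0 := fun h6 => h3 (by omega)
          have h6 : (1 : ℤ) ≤ (x 0 - z 0) ^ 2 := by
            have := Int.one_le_abs h5
            nlinarith [sq_abs (x 0 - z 0), abs_nonneg (x 0 - z 0)]
          exact_mod_cast h6
        have h5 : (xr q x - xr q z) ^ 2 = ((x 0 : ℝ) - z 0) ^ 2 / (q 0 : ℝ) ^ 2 := by
          unfold xr
          field_simp
        rw [h5]
        refine hgq.trans ?_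
        rw [div_le_div_iff₀ (by positivity) (by norm_num)]
        have h6 : 0 ≤ M * (((x 0 : ℝ) - z 0) ^ 2 - 1) := mul_nonneg hM0 (by linarith)
        have h7 : M * (((x 0 : ℝ) - z 0) ^ 2 / (q 0 : ℝ) ^ 2) * (2 * (q 0 : ℝ) ^ 2) =
            2 * (M * ((x 0 : ℝ) - z 0) ^ 2) := by
          field_simp
        rw [h7]
        linarith
      by_cases hxz : x = z
      · exact Or.inl hxz
      right
      rcases x2 with x2 | x2
      · rcases z2 with z2 | z2
        · -- both low
          have lx := (xr_low h0).1 x2.1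
          have lz := (xr_low h0).1 z2.1
          have y3 : Low q S F y := by
            rcases y2 with y2 | y2
            · exact y2
            · exfalso
              have := y2.1
              linarith
          have hdt : ∀ j, (((fun j : Fin D => q j.succ) j : ℕ) : ℤ) ∣ tl x j - 2 * tl y j + tl z j :=
            fun j => hd j.succ
          rcases h.cv _ x2.2.1 _ y3.2.1 _ z2.2.1 hdt with h1 | h1
          · have h2 : tl y = tl x := by
              funext j
              apply eq_of_red (h.red _ y3.2.1 j) (h.red _ x2.2.1 j)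
              apply dvd_of_two (by exact_mod_cast hodd j.succ)
              have e1 := hdt j
              rw [← h1] at e1
              have e2 := (dvd_neg.2 e1)
              have e3 : -(tl x j - 2 * tl y j + tl x j) = 2 * (tl y j - tl x j) := by ring
              rw [e3] at e2
              exact e2
            have h3 := hsame (f (tl x)) (f (tl y)) (f (tl z)) (by rw [h2, ← h1]; ring) hxz
              (by
                intro h4
                apply hxz
                funext j
                refine Fin.cases h4 (fun i => ?_) j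
                exact congrFun h1 i)
            unfold exf
            rw [if_pos x2.1, if_pos y3.1, if_pos z2.1]
            linarith
          · unfold exf
            rw [if_pos x2.1, if_pos y3.1, if_pos z2.1]
            have h3' : M * xr q x ^ 2 - 2 * (M * xr q y ^ 2) + M * xr q z ^ 2 =
                M * (xr q x - xr q z) ^ 2 / 2 := by
              rw [mul_div_assoc, ← hsq]
              ring
            have h4 : 0 ≤ M * (xr q x - xr q z) ^ 2 / 2 := by positivity
            linarith
        · apply hfar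
          right
          have lx := (xr_low h0).1 x2.1
          have lz := z2.1
          linarith
      · rcases z2 with z2 | z2
        · apply hfar
          left
          have lx := (xr_low h0).1 z2.1
          have lz := x2.1
          linarith
        · -- both high
          have lx := x2.1
          have lz := z2.1
          have y3 : High q S F θ η y := by
            rcases y2 with y2 | y2
            · exfalso
              have := (xr_low h0).1 y2.1
              linarith
            · exact y2
          have hdt : ∀ j, (((fun j : Fin D => q j.succ) j : ℕ) : ℤ) ∣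
              co q θ x j - 2 * co q θ y j + co q θ z j := by
            intro j
            have e1 := co_dvd q θ x j
            have e2 := co_dvd q θ y j
            have e3 := co_dvd q θ z j
            have e4 := hd j.succ
            have e5 := dvd_sub (dvd_add (dvd_sub e1 (dvd_mul_of_dvd_right e2 2)) e3)
              (dvd_mul_of_dvd_right e4 2)
            have e6 : 2 * x j.succ + co q θ x j - θ j - 2 * (2 * y j.succ + co q θ y j - θ j) +
                (2 * z j.succ + co q θ z j - θ j) -
                2 * (x j.succ - 2 * y j.succ + z j.succ) =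
                co q θ x j - 2 * co q θ y j + co q θ z j := by ring
            rw [e6] at e5
            exact e5
          have nx := x2.ge h0 hη
          have ny := y3.ge h0 hη
          have nz := z2.ge h0 hη
          rcases h.cv _ x2.2.2.1 _ y3.2.2.1 _ z2.2.2.1 hdt with h1 | h1
          · have h2 : co q θ y = co q θ x := by
              funext j
              apply eq_of_red (h.red _ y3.2.2.1 j) (h.red _ x2.2.2.1 j)
              apply dvd_of_two (by exact_mod_cast hodd j.succ)
              have e1 := hdt j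
              rw [← h1] at e1
              have e2 := (dvd_neg.2 e1)
              have e3 : -(co q θ x j - 2 * co q θ y j + co q θ x j) =
                  2 * (co q θ y j - co q θ x j) := by ring
              rw [e3] at e2
              exact e2
            have h3 := hsame (f (co q θ x)) (f (co q θ y)) (f (co q θ z))
              (by rw [h2, ← h1]; ring) hxz
              (by
                intro h4
                apply hxz
                funext j
                refine Fin.cases h4 (fun i => ?_) j
                apply eq_of_red (x1 i.succ) (z1 i.succ)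
                apply dvd_of_two (by exact_mod_cast hodd i.succ)
                have e1 := co_dvd q θ x i
                have e2 := co_dvd q θ z i
                have e3 := dvd_sub e1 e2
                have e4 : 2 * x i.succ + co q θ x i - θ i - (2 * z i.succ + co q θ z i - θ i) =
                    2 * (x i.succ - z i.succ) := by
                  rw [congrFun h1 i]
                  ring
                rw [e4] at e3
                exact e3)
            unfold exf
            rw [if_neg nx, if_neg ny, if_neg nz]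
            linarith
          · unfold exf
            rw [if_neg nx, if_neg ny, if_neg nz]
            have h3' : M * xr q x ^ 2 - 2 * (M * xr q y ^ 2) + M * xr q z ^ 2 =
                M * (xr q x - xr q z) ^ 2 / 2 := by
              rw [mul_div_assoc, ← hsq]
              ring
            have h4 : 0 ≤ M * (xr q x - xr q z) ^ 2 / 2 := by positivity
            linarith
    · -- positive wrap
      right
      rw [hk3] at hkR
      push_cast at hkR
      have h1 : 1 / 2 ≤ (xr q x) ^ 2 - 2 * (xr q y) ^ 2 + (xr q z) ^ 2 := by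
        have : xr q z = 2 * xr q y + 1 - xr q x := by linarith
        rw [this]
        nlinarith [sq_nonneg (xr q x - xr q y - 1 / 2)]
      have h2 : M * (1 / 2) ≤ M * ((xr q x) ^ 2 - 2 * (xr q y) ^ 2 + (xr q z) ^ 2) :=
        mul_le_mul_of_nonneg_left h1 hM0
      unfold exf
      linarith [bx.1, by'.2, bz.1]
  · intro x hx y hy z hz hd
    obtain ⟨x1, x2⟩ := mem_exS.1 hx
    obtain ⟨y1, y2⟩ := mem_exS.1 hy
    obtain ⟨z1, z2⟩ := mem_exS.1 hz
    obtain ⟨k, hk⟩ := hd 0
    have ax := xr_nonneg (q := q) (x1 0).1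
    have ay := xr_nonneg (q := q) (y1 0).1
    have az := xr_nonneg (q := q) (z1 0).1
    have hodd0 := hodd 0
    have e0 : exθ q θ 0 = ((q 0 : ℤ) + 1) / 2 := rfl
    have e1 : ∀ j : Fin D, exθ q θ j.succ = θ j := fun j => rfl
    obtain ⟨t, ht⟩ : ∃ t : ℤ, t = ((q 0 : ℤ) + 1) / 2 := ⟨_, rfl⟩
    have ht2 : 2 * t = q 0 + 1 := by omega
    rw [e0, ← ht] at hk
    have ht2R : 2 * (t : ℝ) = q 0 + 1 := by exact_mod_cast ht2
    have hkR : xr q x + xr q y + xr q z = k + 1 / 2 + 1 / (2 * q 0) := by
      have h1 : (x 0 : ℝ) + y 0 + z 0 - t = q 0 * k := by exact_mod_cast hk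
      unfold xr
      have h2 : (t : ℝ) = (q 0 + 1) / 2 := by linarith
      rw [h2] at h1
      field_simp
      linarith
    have hk0 : 0 ≤ k := by
      by_contra hneg
      have h1 : k ≤ -1 := by omega
      have h2 : (k : ℝ) ≤ -1 := by exact_mod_cast h1
      have h3 : 1 / (2 * (q 0 : ℝ)) ≤ 1 / 2 := by
        apply one_div_le_one_div_of_le (by norm_num)
        have : (1 : ℝ) ≤ q 0 := by exact_mod_cast h0
        linarith
      have h4 : xr q x + xr q y + xr q z ≤ 0 := by linarith
      have h5 : xr q x = 0 ∧ xr q y = 0 ∧ xr q z = 0 := by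
        refine ⟨by linarith, by linarith, by linarith⟩
      have h6 : (k : ℝ) + 1 / 2 + 1 / (2 * q 0) < 0 := by
        have : 1 / (2 * (q 0 : ℝ)) < 1 / 2 := by
          apply one_div_lt_one_div_of_lt (by norm_num)
          have : (400 : ℝ) ≤ q 0 := by exact_mod_cast hq
          linarith
        linarith
      linarith [h5.1, h5.2.1, h5.2.2]
    have hinv : 0 < 1 / (2 * (q 0 : ℝ)) := by positivity
    rcases Nat.eq_zero_or_pos k.toNat with hk1 | hk1
    · have hk2 : k = 0 := by omega
      exfalso
      rw [hk2] at hkR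
      push_cast at hkR
      have hη' : 1 / (2 * (q 0 : ℝ)) < η := by
        rw [div_lt_iff₀ (by positivity)]
        linarith
      have x3 : Low q S F x := by
        rcases x2 with x2 | x2
        · exact x2
        · exfalso
          have := x2.1
          linarith
      have y3 : Low q S F y := by
        rcases y2 with y2 | y2
        · exact y2
        · exfalso
          have := y2.1
          linarith
      have z3 : Low q S F z := by
        rcases z2 with z2 | z2
        · exact z2
        · exfalso
          have := z2.1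
          linarith
      have ht := h.tri _ x3.2.1 _ y3.2.1 _ z3.2.1 (fun j => hd j.succ)
      have u1 := x3.2.2
      have u2 := y3.2.2
      have u3 := z3.2.2
      unfold lo at u1 u2 u3
      have hq4 : 1 / (2 * (q 0 : ℝ)) ≤ 1 / 800 := by
        apply one_div_le_one_div_of_le (by norm_num)
        have : (400 : ℝ) ≤ q 0 := by exact_mod_cast hq
        linarith
      linarith
    · have hk2 : (1 : ℤ) ≤ k := by omega
      have hk3 : (1 : ℝ) ≤ k := by exact_mod_cast hk2
      linarith

end

end Vale.Agent.P057.R2.H776
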