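import Vale.Agent.P057.R2.H776.Fam

/-!
# P057 : the density of the blocks
-/

set_option linter.all false

open Finset

namespace Vale.Agent.P057.R2.H776

open Vale.Agent.P057.H203 (Blk BlkFam)

/-- a lower bound for the number of points in dimension `D + 2` -/
theorem V_real (D : ℕ) : (231 / 400 : ℝ) ^ D * (554781 / 2000) * 480 ^ D ≤ V (D + 2) 360 := by
  have h := V_final D
  have h1 : (1386 : ℝ) ^ D * 554781 ≤ 2000 * 5 ^ D * V (D + 2) 360 := by exact_mod_cast h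
  have e : (1386 : ℝ) ^ D = (231 / 400 : ℝ) ^ D * 480 ^ D * 5 ^ D := by
    rw [← mul_pow, ← mul_pow]
    norm_num
  rw [e] at h1
  have h5 : (0 : ℝ) < 5 ^ D := by positivity
  have h2 : ((231 / 400 : ℝ) ^ D * (554781 / 2000) * 480 ^ D) * (2000 * 5 ^ D) ≤
      V (D + 2) 360 * (2000 * 5 ^ D) := by
    linarith
  exact le_of_mul_le_mul_right h2 (by positivity)

theorem exists_dim : ∃ E : ℕ, 0 < E ∧ (1 / 3 : ℝ) ^ E ≤
    (231 / 400 : ℝ) ^ (2 * E - 2) * (554781 / 2000) / 480 ^ 2 := by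
  have h : Filter.Tendsto (fun E : ℕ => (160083 / 160000 : ℝ) ^ E) Filter.atTop Filter.atTop :=
    tendsto_pow_atTop_atTop_of_one_lt (by norm_num)
  obtain ⟨E, hE⟩ := ((h.eventually_ge_atTop
    ((231 / 400 : ℝ) ^ 2 * 480 ^ 2 * 2000 / 554781)).and (Filter.eventually_gt_atTop 0)).exists
  refine ⟨E, hE.2, ?_⟩
  obtain ⟨e, he⟩ : ∃ e, E = e + 1 := ⟨E - 1, by have := hE.2; omega⟩
  subst he
  have h1 := hE.1
  have e1 : 2 * (e + 1) - 2 = 2 * e := by omega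
  rw [e1]
  have e2 : (160083 / 160000 : ℝ) ^ (e + 1) =
      (231 / 400 : ℝ) ^ (2 * e) * (231 / 400 : ℝ) ^ 2 * 3 ^ (e + 1) := by
    rw [← pow_add, ← Nat.mul_succ, pow_mul, ← mul_pow]
    norm_num
  rw [e2] at h1
  rw [div_pow, one_pow, div_le_div_iff₀ (by positivity) (by positivity)]
  have h2 : (231 / 400 : ℝ) ^ 2 * 480 ^ 2 * 2000 / 554781 =
      (231 / 400 : ℝ) ^ 2 * (480 ^ 2 * 2000 / 554781) := by ring
  have h3 : (231 / 400 : ℝ) ^ (2 * e) * (231 / 400 : ℝ) ^ 2 * 3 ^ (e + 1) =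
      (231 / 400 : ℝ) ^ 2 * ((231 / 400 : ℝ) ^ (2 * e) * 3 ^ (e + 1)) := by ring
  rw [h2, h3] at h1
  have h4 := le_of_mul_le_mul_left h1 (by positivity)
  rw [div_le_iff₀ (by norm_num)] at h4
  linarith

/-- in some dimension `D` there are blocks of density `3 ^ (-D/2)` -/
theorem blkFam : ∃ D : ℕ, 1 ≤ D ∧ BlkFam D (D * (Real.log 3 / 2)) := by
  obtain ⟨E, hE, hd⟩ := exists_dim
  refine ⟨2 * E, by omega, ?_⟩
  intro η hη
  have hexp : Real.exp (-η) < 1 := by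
    rw [Real.exp_lt_one_iff]
    linarith
  have hexp0 := Real.exp_pos (-η)
  have hD0 : (0 : ℝ) < (2 * E : ℕ) := by
    have : 0 < 2 * E := by omega
    exact_mod_cast this
  obtain ⟨δ, hδ⟩ : ∃ δ : ℝ, δ = (1 - Real.exp (-η)) / ((2 * E : ℕ) : ℝ) := ⟨_, rfl⟩
  have hD2 : (2 : ℝ) ≤ ((2 * E : ℕ) : ℝ) := by
    have : 2 ≤ 2 * E := by omega
    exact_mod_cast this
  have hδ0 : 0 < δ := by rw [hδ]; apply div_pos (by linarith) hD0
  have hδ1 : δ < 1 := by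
    rw [hδ, div_lt_one hD0]
    linarith
  have hpow : Real.exp (-η) ≤ (1 - δ) ^ (2 * E) := by
    have h1 := one_add_mul_le_pow (a := -δ) (by linarith) (2 * E)
    have h2 : ((2 * E : ℕ) : ℝ) * δ = 1 - Real.exp (-η) := by
      rw [hδ]
      field_simp
    have h3 : 1 + -δ = 1 - δ := by ring
    rw [h3] at h1
    linarith
  obtain ⟨R, c, m0, hc, hc1, hR, hm0, hfam⟩ := fam (2 * E) δ hδ0 hδ1
  refine ⟨R, c, m0, hc, hR, fun m hm q hq _ => ?_⟩
  obtain ⟨S, f, F, θ, hG, hcnt⟩ := hfam m hm q hq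
  refine ⟨S, f, hG.blk, ?_⟩
  have hprod : (0 : ℝ) < ∏ j, (q j : ℝ) := by
    apply Finset.prod_pos
    intro j _
    have := (hq j).1.pos
    exact_mod_cast this
  rw [le_div_iff₀ hprod]
  have h1 : (cnt S F 360 : ℝ) ≤ S.card := by
    unfold cnt
    exact_mod_cast Finset.card_filter_le _ _
  refine le_trans ?_ ((hcnt 360).trans h1)
  have h2 : ∏ j : Fin (2 * E), ((q j : ℝ) / 480) = (∏ j, (q j : ℝ)) / 480 ^ (2 * E) := by
    rw [Finset.prod_div_distrib]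
    simp
  rw [h2]
  obtain ⟨e, he⟩ : ∃ e, E = e + 1 := ⟨E - 1, by omega⟩
  have h3 := V_real (2 * e)
  have h4 : 2 * e + 2 = 2 * E := by omega
  rw [h4] at h3
  have h5 : 2 * E - 2 = 2 * e := by omega
  rw [h5] at hd
  have h6 : (480 : ℝ) ^ (2 * E) = 480 ^ (2 * e) * 480 ^ 2 := by
    rw [← pow_add, h4]
  have h7 : Real.exp (-(((2 * E : ℕ) : ℝ) * (Real.log 3 / 2) + η)) =
      (1 / 3 : ℝ) ^ E * Real.exp (-η) := by
    rw [neg_add, Real.exp_add]
    congr 1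
    have h8 : -(((2 * E : ℕ) : ℝ) * (Real.log 3 / 2)) = (E : ℝ) * (-Real.log 3) := by
      push_cast
      ring
    rw [h8, Real.exp_nat_mul, Real.exp_neg, Real.exp_log (by norm_num)]
    norm_num
  rw [h7]
  have h8 : (1 / 3 : ℝ) ^ E * 480 ^ (2 * E) ≤ V (2 * E) 360 := by
    refine le_trans ?_ h3
    rw [h6]
    have h9 : (1 / 3 : ℝ) ^ E * (480 ^ (2 * e) * 480 ^ 2) ≤
        ((231 / 400 : ℝ) ^ (2 * e) * (554781 / 2000) / 480 ^ 2) * (480 ^ (2 * e) * 480 ^ 2) :=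
      mul_le_mul_of_nonneg_right hd (by positivity)
    refine h9.trans (le_of_eq ?_)
    field_simp
  have h9 : (1 / 3 : ℝ) ^ E ≤ V (2 * E) 360 / 480 ^ (2 * E) := by
    rw [le_div_iff₀ (by positivity)]
    exact h8
  have h10 : (1 / 3 : ℝ) ^ E * Real.exp (-η) ≤
      (V (2 * E) 360 / 480 ^ (2 * E)) * (1 - δ) ^ (2 * E) :=
    mul_le_mul h9 hpow hexp0.le (by positivity)
  have h11 := mul_le_mul_of_nonneg_right h10 hprod.le
  refine h11.trans (le_of_eq ?_)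
  ring

end Vale.Agent.P057.R2.H776
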